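import Vale.Agent.P139L62.F3
import Vale.Agent.Results.P139.Blowup

open Set MeasureTheory
open scoped ENNReal

namespace Vale.Agent.Results.P139.AMaximalSolution

open Vale.Agent.P139.A Vale.Agent.P139L

/-- Disproof of almost sure global existence, for functions on the torus.
1. The characters of the torus are `e^{i n·x}`.
2. Every datum in `H^k`, `k > d/2`, has a unique maximal solution.
3. Gaussian families exist, and the random datum is almost surely a well defined element of `H^k`.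
4. In dimension 12 the maximal solution has a finite lifespan with positive probability.
5. The statement of the question is false. -/
theorem result :
    (∀ (d : ℕ) (n : Fin d → ℤ) (x : Fin d → ℝ),
      ech n (pr x) = Complex.exp (Complex.I * ∑ j, (n j : ℂ) * (x j : ℂ))) ∧
    (∀ d p k : ℕ, Odd p → d < 2 * k → ∀ u₀ : L2 d, InH k u₀ → ∃ T u, 0 < T ∧ IsMax p k u₀ T u ∧
      (∀ T' u', Sol p k T' u' → u' 0 = u₀ → T' ≤ T ∧ EqOn u' u (dom T')) ∧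
      ∀ T' u', IsMax p k u₀ T' u' → T' = T) ∧
    (∀ d : ℕ, (∃ (Ω : Type) (_ : MeasurableSpace Ω) (P : Measure Ω) (g : (Fin d → ℤ) → Ω → ℂ),
        Gauss P g) ∧
      ∀ (k : ℕ) (α : ℝ), d < 2 * k → (k : ℝ) < α - (d : ℝ) / 2 →
        ∀ (Ω : Type) [MeasurableSpace Ω] (P : Measure Ω) (g : (Fin d → ℤ) → Ω → ℂ), Gauss P g →
          ∀ᵐ o ∂P, ∃ u₀, IsDatum g α o u₀ ∧ InH k u₀ ∧ ∀ v₀, IsDatum g α o v₀ → v₀ = u₀) ∧
    (∃ p : ℕ, Odd p ∧ 3 ≤ p ∧ 1 < (12 : ℝ) / 2 - 2 / ((p : ℝ) - 1) ∧ ∃ α₁ T₀ : ℝ, 13 ≤ α₁ ∧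
      ∀ α : ℝ, α₁ < α → ∀ (Ω : Type) [MeasurableSpace Ω] (P : Measure Ω)
        (g : (Fin 12 → ℤ) → Ω → ℂ), Gauss P g → ∃ E : Set Ω, MeasurableSet E ∧ 0 < P E ∧
          ∀ o ∈ E, ∀ k : ℕ, 12 < 2 * k → (k : ℝ) < α - (12 : ℝ) / 2 →
            ∃ u₀ T u, IsDatum g α o u₀ ∧ IsMax p k u₀ T u ∧ T ≤ ENNReal.ofReal T₀) ∧
    ¬ Question := by
  obtain ⟨⟨p, hp, h3, hcr, α₁, T₀, H⟩, hG, hQ⟩ := Vale.Agent.Results.P139.Blowup.result
  refine ⟨fun d n x => ech_pr n x, fun d p k ⟨m, hm⟩ hk u₀ h => hm ▸ exists_max hk h,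
    fun d => ⟨?_, fun k α hk hα Ω _ P g ⟨_, h1, _, h2⟩ => ?_⟩,
    ⟨p, hp, h3, hcr, max α₁ 13, T₀, le_max_right _ _, fun α hα Ω _ P g ⟨_, h1, h2, h4⟩ => ?_⟩,
    fun h => hQ fun d p hd hp h3 hcr => ?_⟩
  · obtain ⟨Ω, _, P, hP, g, hg⟩ := hG d
    exact ⟨Ω, inferInstance, P, g, hP, hg⟩
  · filter_upwards [Vale.Agent.P139Z.ae_memSobolev P g h1 h2 hα] with o ho
    obtain ⟨u₀, h5, h6⟩ := datum_of_mem hk ho
    exact ⟨u₀, h5, h6, fun v₀ h7 => co_ext ((co_of_ae h7).trans (co_of_ae h5).symm)⟩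
  · obtain ⟨h5, E, hE, hP, h6⟩ := H α ((le_max_left _ _).trans_lt hα) Ω P g h1 h2 h4
    have h7 : ∀ᵐ o ∂P, ∀ k : ℕ, 12 < 2 * k → (k : ℝ) < α - (12 : ℝ) / 2 →
        MemSobolev k (datum g α o) := ae_all_iff.2 fun k => by
      by_cases hk : 12 < 2 * k ∧ (k : ℝ) < α - (12 : ℝ) / 2
      · filter_upwards [h5 k hk.1 hk.2] with o ho _ _ using ho.1
      · exact Filter.Eventually.of_forall fun o a b => (hk ⟨a, b⟩).elim
    obtain ⟨N, hN, hNm, hN0⟩ := exists_measurable_superset_of_null (ae_iff.1 h7)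
    refine ⟨E \ N, hE.diff hNm, by rwa [measure_sdiff_null hN0], fun o ho k hk hk' => ?_⟩
    obtain ⟨u₀, h8, h9⟩ := datum_of_mem hk (not_not.1 (fun h => ho.2 (hN h)) k hk hk')
    obtain ⟨m, rfl⟩ := hp
    obtain ⟨T, u, -, hu, -⟩ := exists_max (m := m) hk h9
    refine ⟨u₀, T, u, h8, hu, (hu.1.le hk).trans ?_⟩
    rw [hu.2.1, co_of_ae h8]
    exact (h6 o ho.1 k hk).1
  · obtain ⟨α₀, h⟩ := h d p hd hp h3 hcr
    refine ⟨α₀, fun α hα => ?_⟩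
    obtain ⟨k, hk, hk', Ω, _, P, g, ⟨hP, h1, h2, h4⟩, h5⟩ := h α hα
    refine ⟨k, hk, hk', Ω, inferInstance, P, hP, g, h1, h2, h4, ?_⟩
    filter_upwards [h5] with o ⟨u₀, u, h6, hu⟩
    obtain ⟨m, rfl⟩ := hp
    have h7 := hu.1.le hk
    rwa [hu.2.1, co_of_ae h6, top_le_iff] at h7

end Vale.Agent.Results.P139.AMaximalSolution
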